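import Mathlib

/-!
# P032: six colours, finite check for the chord rule on palettes with triples

`L` is a list of masks `2 ^ i ||| 2 ^ j`, the letters.  A splitting of the complement of `p` is a
division into two non-empty parts with all cross pairs in `L`.
-/

namespace Vale.Agent.P032.Words6.H529

def r6 : List ℕ := [0, 1, 2, 3, 4, 5]

def prs : List (ℕ × ℕ) :=
  [(0, 1), (0, 2), (0, 3), (0, 4), (0, 5), (1, 2), (1, 3), (1, 4), (1, 5), (2, 3), (2, 4), (2, 5),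
    (3, 4), (3, 5), (4, 5)]

def mem2 (L : List ℕ) (i j : ℕ) : Bool := L.contains (2 ^ i ||| 2 ^ j)

/-- `n` is one side of a splitting of the complement of `p` -/
def isSpl (L : List ℕ) (p n : ℕ) : Bool :=
  (r6.all fun i => !(n.testBit i && p.testBit i)) &&
  ((r6.any fun i => n.testBit i) &&
  ((r6.any fun j => !(n.testBit j || p.testBit j)) &&
  (r6.all fun i => r6.all fun j => !n.testBit i || (n.testBit j || (p.testBit j || mem2 L i j)))))

def spl (L : List ℕ) (p : ℕ) : List ℕ := (List.range 64).filter (isSpl L p)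

def spB (S : List ℕ) (l m : ℕ) : Bool := S.all fun n => n.testBit l != n.testBit m

def dcB (S : List ℕ) (l m : ℕ) : Bool := S.isEmpty || S.any fun n => n.testBit l && !n.testBit m

/-- the mask of a list of positions -/
def msk (l : List ℕ) : ℕ := l.foldr (fun c a => 2 ^ c ||| a) 0

def c36 : List ℕ := List.range 36

def outM (t : ℕ) : ℕ := msk (c36.filter fun c => !(t.testBit (c / 6) || t.testBit (c % 6)))

def difM : ℕ := msk (c36.filter fun c => c / 6 != c % 6)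

def spM (S : List ℕ) : ℕ := msk (c36.filter fun c => spB S (c / 6) (c % 6))

def dcM (p : ℕ) (S : List ℕ) : ℕ :=
  msk (c36.filter fun c => !(p.testBit (c / 6) || p.testBit (c % 6)) && dcB S (c / 6) (c % 6))

/-- a letter with its two masks -/
def dat (L : List ℕ) (p : ℕ × ℕ) : (ℕ × ℕ) × (ℕ × ℕ) :=
  (p, (spM (spl L (2 ^ p.1 ||| 2 ^ p.2)),
    dcM (2 ^ p.1 ||| 2 ^ p.2) (spl L (2 ^ p.1 ||| 2 ^ p.2))))

def tab (L : List ℕ) : List ((ℕ × ℕ) × (ℕ × ℕ)) :=
  (prs.filter fun p => mem2 L p.1 p.2).map (dat L)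

/-- the letters inside `t` -/
def inn (D : List ((ℕ × ℕ) × (ℕ × ℕ))) (t : ℕ) : List ((ℕ × ℕ) × (ℕ × ℕ)) :=
  D.filter fun p => t.testBit p.1.1 && t.testBit p.1.2

def only (t s : ℕ) (E : List ((ℕ × ℕ) × (ℕ × ℕ))) : ℕ :=
  match E with
  | [p] => (outM t &&& outM s) &&& p.2.1
  | _ => outM t &&& outM s

def con (E F : List ((ℕ × ℕ) × (ℕ × ℕ))) : Bool :=
  E.any fun p => F.any fun q => (p.2.2 &&& q.2.2) != 0

def chk1 (D : List ((ℕ × ℕ) × (ℕ × ℕ))) : Bool :=
  (List.range 64).all fun t => (inn D t).isEmpty || (List.range 64).all fun s =>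
    (inn D s).isEmpty || ((difM &&& (outM t &&& outM s)) == 0 ||
      ((only t s (inn D t) &&& only t s (inn D s)) == 0 || con (inn D t) (inn D s)))

def chk (L : List ℕ) : Bool := chk1 (tab L)

/-- the lists of letters of the thirty-five graphs -/
def gl : List (List ℕ) :=
  [[3, 12, 48],
   [3, 5, 9, 48],
   [3, 5, 10, 48],
   [3, 5, 24, 40],
   [3, 5, 9, 6, 48],
   [3, 5, 9, 18, 34],
   [3, 5, 9, 18, 36],
   [3, 5, 9, 18, 48],
   [3, 5, 6, 24, 40],
   [3, 5, 10, 12, 48],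
   [3, 5, 10, 20, 40],
   [3, 5, 9, 6, 10, 48],
   [3, 5, 9, 6, 18, 36],
   [3, 5, 9, 6, 18, 40],
   [3, 5, 9, 6, 24, 40],
   [3, 5, 9, 6, 24, 48],
   [3, 5, 9, 18, 34, 20],
   [3, 5, 9, 18, 20, 40],
   [3, 5, 9, 18, 20, 48],
   [3, 5, 9, 18, 36, 48],
   [3, 5, 6, 24, 40, 48],
   [3, 5, 10, 20, 40, 48],
   [3, 5, 9, 6, 10, 12, 48],
   [3, 5, 9, 6, 10, 20, 40],
   [3, 5, 9, 6, 10, 20, 48],
   [3, 5, 9, 6, 18, 36, 24],
   [3, 5, 9, 6, 18, 24, 40],
   [3, 5, 9, 6, 18, 40, 48],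
   [3, 5, 9, 6, 24, 40, 48],
   [3, 5, 9, 18, 34, 20, 40],
   [3, 5, 9, 18, 20, 40, 48],
   [3, 5, 9, 6, 10, 20, 40, 48],
   [3, 5, 9, 6, 18, 36, 24, 40],
   [3, 5, 9, 6, 18, 24, 40, 48],
   [3, 5, 9, 6, 18, 36, 24, 40, 48]]

set_option maxRecDepth 100000 in
theorem chk_gl : gl.all chk = true := by decide +kernel

end Vale.Agent.P032.Words6.H529
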